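import Vale.Agent.Lib.P074.Third.Defs

namespace Vale.Agent.Lib.P074

open MeasureTheory ENNReal

namespace PLnD

/-- Prékopa–Leindler with parameter `1/2` on `Fin n → ℝ`. -/
def PLpi (n : ℕ) : Prop :=
  ∀ f g h : (Fin n → ℝ) → ℝ≥0∞, Measurable f → Measurable g → Measurable h →
    (∀ x y, f x * g y ≤ h ((1 / 2 : ℝ) • (x + y)) ^ 2) →
      (∫⁻ x, f x) * (∫⁻ x, g x) ≤ (∫⁻ x, h x) ^ 2

theorem symm_apply (n : ℕ) (p : ℝ × (Fin n → ℝ)) :
    (MeasurableEquiv.piFinSuccAbove (fun _ : Fin (n + 1) => ℝ) 0).symm p =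
      Fin.cons (α := fun _ : Fin (n + 1) => ℝ) p.1 p.2 := by
  rw [MeasurableEquiv.piFinSuccAbove_symm_apply]
  exact Fin.insertNth_zero' p.1 p.2

theorem cons_mid (n : ℕ) (s₁ s₂ : ℝ) (x y : Fin n → ℝ) :
    (1 / 2 : ℝ) • ((Fin.cons (α := fun _ : Fin (n + 1) => ℝ) s₁ x : Fin (n + 1) → ℝ) +
      (Fin.cons (α := fun _ : Fin (n + 1) => ℝ) s₂ y : Fin (n + 1) → ℝ)) =
    (Fin.cons (α := fun _ : Fin (n + 1) => ℝ) ((s₁ + s₂) / 2) ((1 / 2 : ℝ) • (x + y)) :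
      Fin (n + 1) → ℝ) := by
  ext i
  refine Fin.cases ?_ (fun j => ?_) i
  · simp only [Pi.smul_apply, Pi.add_apply, Fin.cons_zero, smul_eq_mul]
    ring
  · simp only [Pi.smul_apply, Pi.add_apply, Fin.cons_succ, smul_eq_mul]

theorem plpi_zero : PLpi 0 := by
  intro f g h _ _ _ H
  rw [lintegral_unique, lintegral_unique, lintegral_unique]
  have hvol : (volume : Measure (Fin 0 → ℝ)) Set.univ = 1 := by
    rw [volume_pi, Measure.pi_univ]
    simp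
  rw [hvol, mul_one, mul_one, mul_one]
  have hx : ∀ x y z : Fin 0 → ℝ, f x * g y ≤ h z ^ 2 := by
    intro x y z
    have h1 := H x y
    rwa [Subsingleton.elim ((1 / 2 : ℝ) • (x + y)) z] at h1
  exact hx _ _ _

theorem plpi_succ
    (h1 : ∀ f g h : ℝ → ℝ≥0∞, Measurable f → Measurable g → Measurable h →
      (∀ x y, f x * g y ≤ h ((x + y) / 2) ^ 2) → (∫⁻ x, f x) * (∫⁻ x, g x) ≤ (∫⁻ x, h x) ^ 2)
    (n : ℕ) (ih : PLpi n) : PLpi (n + 1) := by
  intro f g h hf hg hh H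
  set e := MeasurableEquiv.piFinSuccAbove (fun _ : Fin (n + 1) => ℝ) 0 with he
  have hmp : MeasurePreserving e.symm := (volume_preserving_piFinSuccAbove (fun _ => ℝ) 0).symm e
  have key : ∀ φ : (Fin (n + 1) → ℝ) → ℝ≥0∞, Measurable φ →
      ∫⁻ x, φ x = ∫⁻ s : ℝ, ∫⁻ x' : Fin n → ℝ, φ (e.symm (s, x')) := by
    intro φ hφ
    rw [← hmp.lintegral_comp hφ]
    have hm : Measurable fun p : ℝ × (Fin n → ℝ) => φ (e.symm p) := hφ.comp e.symm.measurable
    rw [Measure.volume_eq_prod, lintegral_prod _ hm.aemeasurable]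
  have hmeas : ∀ φ : (Fin (n + 1) → ℝ) → ℝ≥0∞, Measurable φ →
      Measurable fun s : ℝ => ∫⁻ x' : Fin n → ℝ, φ (e.symm (s, x')) := by
    intro φ hφ
    have hm : Measurable fun p : ℝ × (Fin n → ℝ) => φ (e.symm p) := hφ.comp e.symm.measurable
    exact hm.lintegral_prod_right'
  have hslice : ∀ (φ : (Fin (n + 1) → ℝ) → ℝ≥0∞), Measurable φ → ∀ s : ℝ,
      Measurable fun x' : Fin n → ℝ => φ (e.symm (s, x')) := by
    intro φ hφ s
    exact (hφ.comp e.symm.measurable).comp measurable_prodMk_left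
  rw [key f hf, key g hg, key h hh]
  refine h1 _ _ _ (hmeas f hf) (hmeas g hg) (hmeas h hh) ?_
  intro s₁ s₂
  refine ih _ _ _ (hslice f hf s₁) (hslice g hg s₂) (hslice h hh _) ?_
  intro x y
  have h2 := H (e.symm (s₁, x)) (e.symm (s₂, y))
  have h3 : (1 / 2 : ℝ) • (e.symm (s₁, x) + e.symm (s₂, y)) =
      e.symm ((s₁ + s₂) / 2, (1 / 2 : ℝ) • (x + y)) := by
    rw [he, symm_apply, symm_apply, symm_apply]
    exact cons_mid n s₁ s₂ x y
  rw [h3] at h2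
  exact h2

theorem plpi
    (h1 : ∀ f g h : ℝ → ℝ≥0∞, Measurable f → Measurable g → Measurable h →
      (∀ x y, f x * g y ≤ h ((x + y) / 2) ^ 2) → (∫⁻ x, f x) * (∫⁻ x, g x) ≤ (∫⁻ x, h x) ^ 2)
    (n : ℕ) : PLpi n := by
  induction n with
  | zero => exact plpi_zero
  | succ n ih => exact plpi_succ h1 n ih

end PLnD

/-- Prékopa–Leindler in dimension `n` from the one-dimensional inequality. -/
theorem pl_of_one_dim
    (h1 : ∀ f g h : ℝ → ℝ≥0∞, Measurable f → Measurable g → Measurable h →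
      (∀ x y, f x * g y ≤ h ((x + y) / 2) ^ 2) → (∫⁻ x, f x) * (∫⁻ x, g x) ≤ (∫⁻ x, h x) ^ 2)
    (n : ℕ) : PLStatement n := by
  intro f g h hf hg hh H
  have hmp := PiLp.volume_preserving_toLp (Fin n)
  have hml : Measurable (WithLp.toLp 2 : (Fin n → ℝ) → E n) := hmp.measurable
  rw [← hmp.lintegral_comp hf, ← hmp.lintegral_comp hg, ← hmp.lintegral_comp hh]
  refine PLnD.plpi h1 n _ _ _ (hf.comp hml) (hg.comp hml) (hh.comp hml) ?_
  intro x y
  have h2 := H (WithLp.toLp 2 x) (WithLp.toLp 2 y)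
  have h3 : (1 / 2 : ℝ) • ((WithLp.toLp 2 x : E n) + WithLp.toLp 2 y) =
      WithLp.toLp 2 ((1 / 2 : ℝ) • (x + y)) := by
    rw [WithLp.toLp_smul, WithLp.toLp_add]
  rw [h3] at h2
  exact h2

end Vale.Agent.Lib.P074
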